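import Vale.Agent.H28.P355.D
import Vale.Agent.H23.MUB.A

/-!
P355: the fields over which complete sets of mutually unbiased bases of `ℂ^6` can be defined.
-/

namespace Vale.Agent.Results.P355.CompleteSets

open scoped ComplexConjugate IntermediateField

/-- Orthonormal bases of `ℂ^6`. -/
abbrev ONB := OrthonormalBasis (Fin 6) ℂ (EuclideanSpace ℂ (Fin 6))

/-- Pairwise mutually unbiased orthonormal bases of `ℂ^6`. -/
def MUB {k : ℕ} (B : Fin k → ONB) : Prop :=
  ∀ a b, a ≠ b → ∀ i j, ‖inner ℂ (B a i) (B b j)‖ ^ 2 = 1 / 6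

/-- The projection `|v⟩⟨v|` has all its matrix entries in the field `K`. -/
def Over (K : IntermediateField ℚ ℂ) (v : EuclideanSpace ℂ (Fin 6)) : Prop :=
  ∀ k l : Fin 6, v k * conj (v l) ∈ K

/-- The field generated over `ℚ` by all `n`-th roots of unity. -/
noncomputable def cyc (n : ℕ) : IntermediateField ℚ ℂ :=
  IntermediateField.adjoin ℚ {z : ℂ | z ^ n = 1}

lemma part1 (K : IntermediateField ℚ ℂ) (B : Fin 7 → ONB) (hB : MUB B)
    (hK : ∀ a j, Over K (B a j)) : Complex.I ∈ K ∧ ∃ z ∈ K, z * conj z = 6 := by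
  have hB' : H28.P355.MUB 6 7 B := by
    intro a b hab i j
    rw [hB a b hab i j]
    norm_num
  refine ⟨H28.P355.I_mem_of_complete B K.toSubfield hB' hK, ?_⟩
  exact H28.P355.six_norm K.toSubfield (B 0 0) (B 1 0) (B 2 0) (hB 0 1 (by decide) 0 0)
    (hB 1 2 (by decide) 0 0) (hB 2 0 (by decide) 0 0) (hK 0 0) (hK 1 0) (hK 2 0)

lemma part2 (K : IntermediateField ℚ ℂ) [FiniteDimensional ℚ K]
    (hI : Complex.I ∈ K) (h6 : ∃ z ∈ K, z * conj z = 6) : 4 ≤ Module.finrank ℚ K := by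
  have hle : ℚ⟮Complex.I⟯ ≤ K := by
    rw [IntermediateField.adjoin_simple_le_iff]
    exact hI
  have hint : IsIntegral ℚ Complex.I := by
    refine ⟨Polynomial.X ^ 2 + 1, ?_, ?_⟩
    · monicity!
    · simp
  have h2 : Module.finrank ℚ ℚ⟮Complex.I⟯ = 2 := by
    have hd : Module.finrank ℚ ℚ⟮Complex.I⟯ ≤ 2 := by
      rw [IntermediateField.adjoin.finrank hint]
      have h3 : (Polynomial.X ^ 2 + 1 : Polynomial ℚ).natDegree = 2 := by
        compute_degree!
      rw [← h3]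
      apply Polynomial.natDegree_le_of_dvd
      · exact minpoly.dvd _ _ (by simp)
      · intro h
        rw [h] at h3
        simp at h3
    have hne1 : Module.finrank ℚ ℚ⟮Complex.I⟯ ≠ 1 := by
      intro h
      rw [IntermediateField.finrank_adjoin_simple_eq_one_iff, IntermediateField.mem_bot] at h
      obtain ⟨x, hx⟩ := h
      have := congrArg Complex.im hx
      simp at this
    have hne0 : Module.finrank ℚ ℚ⟮Complex.I⟯ ≠ 0 := by
      rw [IntermediateField.adjoin.finrank hint]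
      exact (minpoly.natDegree_pos hint).ne'
    omega
  have hdvd : 2 ∣ Module.finrank ℚ K := by
    rw [← h2]
    exact IntermediateField.finrank_dvd_of_le_right hle
  have hpos : 0 < Module.finrank ℚ K := Module.finrank_pos
  by_contra hlt
  have heq : Module.finrank ℚ K = 2 := by omega
  have hK : ℚ⟮Complex.I⟯ = K := IntermediateField.eq_of_le_of_finrank_eq hle (by rw [h2, heq])
  obtain ⟨z, hz, hz6⟩ := h6
  rw [← hK] at hz
  exact H23.MUB.no_norm (n := 4) (ζ := Complex.I) (by norm_num)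
    (by rw [show (4 : ℕ) = 2 * 2 from rfl, pow_mul, Complex.I_sq]; norm_num) 3 (Or.inr rfl)
    (m := 1) one_pos (by norm_num) hz hz6

lemma part4 (K : IntermediateField ℚ ℂ) (hK : ∀ z ∈ K, z * conj z ≠ 6) {k : ℕ}
    (B : Fin k → ONB) (hB : MUB B) (S : Finset (Fin k)) (hS : ∀ i ∈ S, ∃ j, Over K (B i j)) :
    S.card ≤ 2 := by
  by_contra h
  push Not at h
  obtain ⟨a, ha, b, hb, c, hc, hab, hac, hbc⟩ := Finset.two_lt_card.mp h
  obtain ⟨ja, hja⟩ := hS a ha
  obtain ⟨jb, hjb⟩ := hS b hb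
  obtain ⟨jc, hjc⟩ := hS c hc
  obtain ⟨z, hz, hz6⟩ := H28.P355.six_norm K.toSubfield (B a ja) (B b jb) (B c jc)
    (hB a b hab ja jb) (hB b c hbc jb jc) (hB c a (Ne.symm hac) jc ja) hja hjb hjc
  exact hK z hz hz6

/-- (1) If a complete set of seven mutually unbiased bases of `ℂ^6` is defined over a subfield `K`
of `ℂ` (all its projections have their entries in `K`), then `i ∈ K`, `6 = z * conj z` for some
`z ∈ K`, and `K` has degree at least four over `ℚ` (if finite).
(2) If `K` is the field of the `n`-th roots of unity, then `4 ∣ n` and `n` divides no `3 ^ m + 1`.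
(3) If `6` is not of the form `z * conj z` with `z ∈ K`, then among the members of any family of
mutually unbiased bases of `ℂ^6` at most two contain a vector whose projection is defined over
`K`. (4) This applies to the field of the `n`-th roots of unity if `n` divides `3 ^ m + 1` or
`2 * (2 ^ m + 1)` for some `m`. -/
theorem result :
    (∀ (K : IntermediateField ℚ ℂ) (B : Fin 7 → ONB), MUB B → (∀ a j, Over K (B a j)) →
      Complex.I ∈ K ∧ (∃ z ∈ K, z * conj z = 6) ∧
        (FiniteDimensional ℚ K → 4 ≤ Module.finrank ℚ K)) ∧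
    (∀ (n : ℕ) (B : Fin 7 → ONB), MUB B → (∀ a j, Over (cyc n) (B a j)) →
      4 ∣ n ∧ ∀ m : ℕ, ¬ n ∣ 3 ^ m + 1) ∧
    (∀ K : IntermediateField ℚ ℂ, (∀ z ∈ K, z * conj z ≠ 6) →
      ∀ (k : ℕ) (B : Fin k → ONB), MUB B →
        ∀ S : Finset (Fin k), (∀ i ∈ S, ∃ j, Over K (B i j)) → S.card ≤ 2) ∧
    (∀ n : ℕ, (∃ m : ℕ, n ∣ 3 ^ m + 1 ∨ n ∣ 2 * (2 ^ m + 1)) →
      ∀ z ∈ cyc n, z * conj z ≠ 6) := by
  have h4 : ∀ n : ℕ, (∃ m : ℕ, n ∣ 3 ^ m + 1 ∨ n ∣ 2 * (2 ^ m + 1)) →
      ∀ z ∈ cyc n, z * conj z ≠ 6 := fun n hn z hz => H23.MUB.cyc_no_norm hn hz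
  refine ⟨?_, ?_, ?_, h4⟩
  · intro K B hB hK
    have h := part1 K B hB hK
    exact ⟨h.1, h.2, fun hf => part2 K h.1 h.2⟩
  · intro n B hB hK
    have h := part1 (cyc n) B hB hK
    refine ⟨H28.P355.four_dvd_cyc n h.1, fun m hm => ?_⟩
    obtain ⟨z, hz, hz6⟩ := h.2
    exact h4 n ⟨m, Or.inl hm⟩ z hz hz6
  · intro K hK k B hB S hS
    exact part4 K hK B hB S hS

end Vale.Agent.Results.P355.CompleteSets
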