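import Mathlib
import Vale.Agent.H23.MUB.A

/-!
P355: an arithmetic obstruction for three mutually unbiased bases of `ℂ^6`.
-/

namespace Vale.Agent.Results.P355.CyclotomicFields

/-- Orthonormal bases of `ℂ^6`. -/
abbrev ONB := OrthonormalBasis (Fin 6) ℂ (EuclideanSpace ℂ (Fin 6))

/-- Two orthonormal bases of `ℂ^6` are mutually unbiased. -/
def Unbiased (B C : ONB) : Prop := ∀ i j, ‖inner ℂ (B i) (C j)‖ ^ 2 = 1 / 6

/-- All matrix entries of the projections `|b⟩⟨b|` on the vectors `b` of the basis `B` lie in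
the field `K`. -/
def Over (K : IntermediateField ℚ ℂ) (B : ONB) : Prop :=
  ∀ i k l : Fin 6, B i k * (starRingEnd ℂ) (B i l) ∈ K

/-- The field generated over `ℚ` by all `n`-th roots of unity. -/
noncomputable def cyc (n : ℕ) : IntermediateField ℚ ℂ :=
  IntermediateField.adjoin ℚ {z : ℂ | z ^ n = 1}

lemma triple {K : IntermediateField ℚ ℂ} {B C D : ONB} (hBC : Unbiased B C) (hBD : Unbiased B D)
    (hCD : Unbiased C D) (hB : Over K B) (hC : Over K C) (hD : Over K D) :
    ∃ z ∈ K, z * (starRingEnd ℂ) z = 6 := by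
  set T : ℂ := inner ℂ (B 0) (C 0) * inner ℂ (C 0) (D 0) * inner ℂ (D 0) (B 0) with hT
  have hTK : T ∈ K := by
    have h : T = ∑ k : Fin 6, ∑ l : Fin 6, ∑ m : Fin 6,
        (C 0 k * (starRingEnd ℂ) (C 0 l)) * (D 0 l * (starRingEnd ℂ) (D 0 m)) *
          (B 0 m * (starRingEnd ℂ) (B 0 k)) := by
      rw [hT]
      simp only [PiLp.inner_apply, RCLike.inner_apply]
      rw [Finset.sum_mul_sum, Finset.sum_mul]
      apply Finset.sum_congr rfl
      intro k _
      rw [Finset.sum_mul]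
      apply Finset.sum_congr rfl
      intro l _
      rw [Finset.mul_sum]
      apply Finset.sum_congr rfl
      intro m _
      ring
    rw [h]
    exact sum_mem fun k _ => sum_mem fun l _ => sum_mem fun m _ =>
      mul_mem (mul_mem (hC 0 k l) (hD 0 l m)) (hB 0 m k)
  refine ⟨36 * T, mul_mem (by exact_mod_cast K.natCast_mem 36) hTK, ?_⟩
  have h1 : T * (starRingEnd ℂ) T = ((1 / 216 : ℝ) : ℂ) := by
    rw [Complex.mul_conj, Complex.normSq_eq_norm_sq, hT]
    congr 1
    rw [norm_mul, norm_mul, mul_pow, mul_pow, hBC 0 0, hCD 0 0, norm_inner_symm, hBD 0 0]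
    norm_num
  have h2 : (starRingEnd ℂ) (36 * T) = 36 * (starRingEnd ℂ) T := by
    rw [map_mul, map_ofNat]
  rw [h2]
  have : 36 * T * (36 * (starRingEnd ℂ) T) = 1296 * (T * (starRingEnd ℂ) T) := by ring
  rw [this, h1]
  push_cast
  norm_num

/-- (1) Let `K` be a subfield of `ℂ` such that `6` is not of the form `z * conj z` with `z ∈ K`.
Then every family of pairwise mutually unbiased orthonormal bases of `ℂ^6` whose projections all
have their entries in `K` has at most two members.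
(2) The field of the `n`-th roots of unity is such a field whenever `n` divides `3 ^ m + 1` or
`2 * (2 ^ m + 1)` for some `m`; hence every family of pairwise mutually unbiased orthonormal bases
over it has at most two members.
(3) The condition holds for `n = 2 * 3 ^ a`, for all `a`. -/
theorem result :
    (∀ K : IntermediateField ℚ ℂ, (∀ z ∈ K, z * (starRingEnd ℂ) z ≠ 6) →
      ∀ (k : ℕ) (B : Fin k → ONB), (∀ i j, i ≠ j → Unbiased (B i) (B j)) →
        (∀ i, Over K (B i)) → k ≤ 2) ∧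
    (∀ n : ℕ, (∃ m : ℕ, n ∣ 3 ^ m + 1 ∨ n ∣ 2 * (2 ^ m + 1)) →
      (∀ z ∈ cyc n, z * (starRingEnd ℂ) z ≠ 6) ∧
      ∀ (k : ℕ) (B : Fin k → ONB), (∀ i j, i ≠ j → Unbiased (B i) (B j)) →
        (∀ i, Over (cyc n) (B i)) → k ≤ 2) ∧
    (∀ a : ℕ, ∃ m : ℕ, 2 * 3 ^ a ∣ 2 * (2 ^ m + 1)) := by
  have h1 : ∀ K : IntermediateField ℚ ℂ, (∀ z ∈ K, z * (starRingEnd ℂ) z ≠ 6) →
      ∀ (k : ℕ) (B : Fin k → ONB), (∀ i j, i ≠ j → Unbiased (B i) (B j)) →
        (∀ i, Over K (B i)) → k ≤ 2 := by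
    intro K hK k B hB hO
    by_contra hk
    push Not at hk
    obtain ⟨z, hz, h6⟩ := triple
      (hB ⟨0, by omega⟩ ⟨1, by omega⟩ (by simp)) (hB ⟨0, by omega⟩ ⟨2, by omega⟩ (by simp))
      (hB ⟨1, by omega⟩ ⟨2, by omega⟩ (by simp)) (hO _) (hO _) (hO _)
    exact hK z hz h6
  refine ⟨h1, ?_, ?_⟩
  · intro n hn
    have h2 : ∀ z ∈ cyc n, z * (starRingEnd ℂ) z ≠ 6 :=
      fun z hz => Vale.Agent.H23.MUB.cyc_no_norm hn hz
    exact ⟨h2, h1 (cyc n) h2⟩
  · intro a
    cases a with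
    | zero => exact ⟨0, by norm_num⟩
    | succ a => exact ⟨3 ^ a, Nat.mul_dvd_mul_left 2 (Vale.Agent.H23.MUB.three_pow a)⟩

end Vale.Agent.Results.P355.CyclotomicFields
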